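import Mathlib

namespace Vale.Agent.P042

open Finset

/-- A family of at least `C` integers with real ranks in `[0, H - 1]` such that a square
difference modulo `M` forces a rank drop of at least one. -/
def Good (M : ℕ) (H C : ℝ) : Prop :=
  ∃ (ι : Type) (_ : Fintype ι) (v : ι → ℤ) (ρ : ι → ℝ),
    C ≤ (Fintype.card ι : ℝ) ∧ (∀ i, 0 ≤ ρ i ∧ ρ i + 1 ≤ H) ∧
      ∀ i j, i ≠ j → ∀ n : ℤ, (M : ℤ) ∣ v i - v j - n ^ 2 → ρ j + 1 ≤ ρ i

theorem Good.mono {M : ℕ} {H H' C C' : ℝ} (h : Good M H C) (hH : H ≤ H') (hC : C' ≤ C) :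
    Good M H' C' := by
  obtain ⟨ι, _, v, ρ, h1, h2, h3⟩ := h
  exact ⟨ι, inferInstance, v, ρ, hC.trans h1, fun i => ⟨(h2 i).1, (h2 i).2.trans hH⟩, h3⟩

theorem good_zero (M : ℕ) (H : ℝ) : Good M H 0 :=
  ⟨Empty, inferInstance, fun i => i.elim, fun i => i.elim, by simp, fun i => i.elim,
    fun i => i.elim⟩

theorem good_one : Good 1 1 1 :=
  ⟨Unit, inferInstance, fun _ => 0, fun _ => 0, by simp, fun _ => by simp,
    fun i j h => (h (Subsingleton.elim i j)).elim⟩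

/-- Chinese remainder product: heights add, sizes multiply. -/
theorem Good.crt {M₁ M₂ : ℕ} {H₁ H₂ C₁ C₂ : ℝ} (h₁ : Good M₁ H₁ C₁) (h₂ : Good M₂ H₂ C₂)
    (hc : Nat.Coprime M₁ M₂) (hC₂ : 0 ≤ C₂) :
    Good (M₁ * M₂) (H₁ + H₂) (C₁ * C₂) := by
  obtain ⟨ι₁, _, v₁, ρ₁, a1, a2, a3⟩ := h₁
  obtain ⟨ι₂, _, v₂, ρ₂, b1, b2, b3⟩ := h₂
  have hc' : IsCoprime (M₁ : ℤ) (M₂ : ℤ) := Nat.isCoprime_iff_coprime.mpr hc
  obtain ⟨x, y, hxy⟩ := hc'
  refine ⟨ι₁ × ι₂, inferInstance, fun i => v₁ i.1 * (y * M₂) + v₂ i.2 * (x * M₁),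
    fun i => ρ₁ i.1 + ρ₂ i.2, ?_, ?_, ?_⟩
  · rw [Fintype.card_prod]; push_cast
    exact mul_le_mul a1 b1 hC₂ (by positivity)
  · intro i
    have := a2 i.1; have := b2 i.2
    constructor <;> linarith
  · rintro ⟨i₁, i₂⟩ ⟨j₁, j₂⟩ hij n hn
    push_cast at hn
    have e1 : (M₁ : ℤ) ∣ v₁ i₁ - v₁ j₁ - n ^ 2 := by
      have h := (Dvd.intro _ rfl : (M₁ : ℤ) ∣ M₁ * M₂).trans hn
      have : v₁ i₁ - v₁ j₁ - n ^ 2 =
          (v₁ i₁ * (y * M₂) + v₂ i₂ * (x * M₁) - (v₁ j₁ * (y * M₂) + v₂ j₂ * (x * M₁)) - n ^ 2)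
            + M₁ * (x * (v₁ i₁ - v₁ j₁) - x * (v₂ i₂ - v₂ j₂)) := by
        linear_combination (-(v₁ i₁ - v₁ j₁)) * hxy
      rw [this]
      exact dvd_add h (Dvd.intro _ rfl)
    have e2 : (M₂ : ℤ) ∣ v₂ i₂ - v₂ j₂ - n ^ 2 := by
      have h := (Dvd.intro_left _ rfl : (M₂ : ℤ) ∣ M₁ * M₂).trans hn
      have : v₂ i₂ - v₂ j₂ - n ^ 2 =
          (v₁ i₁ * (y * M₂) + v₂ i₂ * (x * M₁) - (v₁ j₁ * (y * M₂) + v₂ j₂ * (x * M₁)) - n ^ 2)
            + M₂ * (y * (v₂ i₂ - v₂ j₂) - y * (v₁ i₁ - v₁ j₁)) := by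
        linear_combination (-(v₂ i₂ - v₂ j₂)) * hxy
      rw [this]
      exact dvd_add h (Dvd.intro _ rfl)
    by_cases h1 : i₁ = j₁
    · have h2 : i₂ ≠ j₂ := fun h2 => hij (by rw [h1, h2])
      have := b3 _ _ h2 n e2
      simp only [h1]; linarith
    · have := a3 _ _ h1 n e1
      by_cases h2 : i₂ = j₂
      · simp only [h2]; linarith
      · have := b3 _ _ h2 n e2
        simp only; linarith

/-- An interval system modulo `L ^ 2`. -/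
def Base (L : ℕ) (κ : Type) (v : κ → ℤ) (lo w : κ → ℝ) : Prop :=
  (∀ i, 0 ≤ lo i ∧ 0 ≤ w i ∧ lo i + w i ≤ 1) ∧
    ∀ i j, i ≠ j → ∀ n : ℤ, ((L : ℤ) ^ 2) ∣ v i - v j - n ^ 2 → lo j + w j ≤ lo i

/-- One lexicographic step. -/
theorem Base.step {L : ℕ} (hL : 0 < L) {κ : Type} [Fintype κ] {v : κ → ℤ} {lo w : κ → ℝ}
    (hb : Base L κ v lo w) {M : ℕ} {H : ℝ} (hH : 0 ≤ H) {C : κ → ℝ}
    (h : ∀ i, Good M (H * w i) (C i)) : Good (L ^ 2 * M) H (∑ i, C i) := by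
  classical
  choose ι inst u ρ h1 h2 h3 using h
  refine ⟨Σ i, ι i, inferInstance, fun s => v s.1 + (L : ℤ) ^ 2 * u s.1 s.2,
    fun s => H * lo s.1 + ρ s.1 s.2, ?_, ?_, ?_⟩
  · rw [Fintype.card_sigma]; push_cast
    exact Finset.sum_le_sum fun i _ => h1 i
  · rintro ⟨i, s⟩
    obtain ⟨a, b, c⟩ := hb.1 i
    obtain ⟨d, e⟩ := h2 i s
    have : 0 ≤ H * lo i := mul_nonneg hH a
    have : H * lo i + H * w i ≤ H := by nlinarith
    constructor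
    · simp only; linarith
    · simp only; linarith
  · rintro ⟨i, s⟩ ⟨j, t⟩ hij n hn
    push_cast at hn
    simp only at hn ⊢
    by_cases hi : i = j
    · subst hi
      have hst : s ≠ t := fun h => hij (by rw [h])
      have hL' : ((L : ℤ)) ≠ 0 := by exact_mod_cast hL.ne'
      have e1 : (L : ℤ) ^ 2 ∣ n ^ 2 := by
        have h := (Dvd.intro _ rfl : (L : ℤ) ^ 2 ∣ L ^ 2 * M).trans hn
        have : n ^ 2 = (L : ℤ) ^ 2 * (u i s - u i t) -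
          (v i + (L : ℤ) ^ 2 * u i s - (v i + (L : ℤ) ^ 2 * u i t) - n ^ 2) := by ring
        rw [this]
        exact dvd_sub (Dvd.intro _ rfl) h
      obtain ⟨n', rfl⟩ := (Int.pow_dvd_pow_iff two_ne_zero).mp e1
      have e2 : (M : ℤ) ∣ u i s - u i t - n' ^ 2 := by
        have : v i + (L : ℤ) ^ 2 * u i s - (v i + (L : ℤ) ^ 2 * u i t) - (L * n') ^ 2 =
          (L : ℤ) ^ 2 * (u i s - u i t - n' ^ 2) := by ring
        rw [this] at hn
        exact (mul_dvd_mul_iff_left (pow_ne_zero 2 hL')).mp hn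
      have := h3 i s t hst n' e2
      linarith
    · have e1 : (L : ℤ) ^ 2 ∣ v i - v j - n ^ 2 := by
        have h := (Dvd.intro _ rfl : (L : ℤ) ^ 2 ∣ L ^ 2 * M).trans hn
        have : v i - v j - n ^ 2 =
          (v i + (L : ℤ) ^ 2 * u i s - (v j + (L : ℤ) ^ 2 * u j t) - n ^ 2) -
            (L : ℤ) ^ 2 * (u i s - u j t) := by ring
        rw [this]
        exact dvd_sub h (Dvd.intro _ rfl)
      have e2 := hb.2 i j hi n e1
      obtain ⟨d, e⟩ := h2 j t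
      obtain ⟨d', e'⟩ := h2 i s
      have : H * (lo j + w j) ≤ H * lo i := mul_le_mul_of_nonneg_left e2 hH
      linarith

/-- From a system modulo a squarefree `m` to a system modulo `m ^ 2` with a free digit. -/
theorem base_of_squarefree {m : ℕ} (hm : Squarefree m) {κ : Type} {v : κ → ℤ} {lo w : κ → ℝ}
    (h1 : ∀ i, 0 ≤ lo i ∧ 0 ≤ w i ∧ lo i + w i ≤ 1)
    (h2 : ∀ i j, i ≠ j → ∀ n : ℤ, (m : ℤ) ∣ v i - v j - n ^ 2 → lo j + w j ≤ lo i) :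
    Base m (κ × Fin m) (fun s => v s.1 + m * ((s.2 : ℕ) : ℤ)) (fun s => lo s.1)
      (fun s => w s.1) := by
  refine ⟨fun s => h1 s.1, ?_⟩
  rintro ⟨i, d⟩ ⟨j, e⟩ hij n hn
  simp only at hn ⊢
  have hm0 : (m : ℤ) ≠ 0 := by exact_mod_cast hm.ne_zero
  have hmm : (m : ℤ) ∣ (m : ℤ) ^ 2 := Dvd.intro m (by ring)
  by_cases hi : i = j
  · exfalso
    subst hi
    have e1 : (m : ℤ) ∣ n ^ 2 := by
      have h := hmm.trans hn
      have : n ^ 2 = (m : ℤ) * (((d : ℕ) : ℤ) - ((e : ℕ) : ℤ)) -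
        (v i + m * ((d : ℕ) : ℤ) - (v i + m * ((e : ℕ) : ℤ)) - n ^ 2) := by ring
      rw [this]
      exact dvd_sub (Dvd.intro _ rfl) h
    have hsq : Squarefree (m : ℤ) := Int.squarefree_natCast.mpr hm
    obtain ⟨n', rfl⟩ := (hsq.dvd_pow_iff_dvd two_ne_zero).mp e1
    have e2 : (m : ℤ) ∣ ((d : ℕ) : ℤ) - ((e : ℕ) : ℤ) := by
      have : v i + m * ((d : ℕ) : ℤ) - (v i + m * ((e : ℕ) : ℤ)) - (m * n') ^ 2 =
        (m : ℤ) * ((((d : ℕ) : ℤ) - ((e : ℕ) : ℤ)) - m * n' ^ 2) := by ring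
      rw [this, pow_two] at hn
      have h := (mul_dvd_mul_iff_left hm0).mp hn
      have : ((d : ℕ) : ℤ) - ((e : ℕ) : ℤ) =
        ((((d : ℕ) : ℤ) - ((e : ℕ) : ℤ)) - m * n' ^ 2) + m * n' ^ 2 := by ring
      rw [this]
      exact dvd_add h (Dvd.intro _ rfl)
    have hd := d.2
    have he := e.2
    have : ((d : ℕ) : ℤ) - ((e : ℕ) : ℤ) = 0 :=
      Int.eq_zero_of_abs_lt_dvd e2 (by rw [abs_lt]; constructor <;> omega)
    exact hij (by
      have : d = e := Fin.ext (by omega)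
      rw [this])
  · apply h2 i j hi n
    have h := hmm.trans hn
    have : v i - v j - n ^ 2 =
      (v i + m * ((d : ℕ) : ℤ) - (v j + m * ((e : ℕ) : ℤ)) - n ^ 2) -
        (m : ℤ) * (((d : ℕ) : ℤ) - ((e : ℕ) : ℤ)) := by ring
    rw [this]
    exact dvd_sub h (Dvd.intro _ rfl)

/-- Lexicographic product with a system modulo a perfect square. -/
theorem Good.lex {L M : ℕ} (hL : 0 < L) {H₁ H₂ C₁ C₂ : ℝ} (h₁ : Good (L ^ 2) H₁ C₁)
    (h₂ : Good M H₂ C₂) (hH₁ : 0 < H₁) (hH₂ : 0 ≤ H₂) (hC₂ : 0 ≤ C₂) :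
    Good (L ^ 2 * M) (H₁ * H₂) (C₁ * C₂) := by
  obtain ⟨ι, _, v, ρ, a1, a2, a3⟩ := h₁
  have hb : Base L ι v (fun i => ρ i / H₁) (fun _ => 1 / H₁) := by
    refine ⟨fun i => ⟨div_nonneg (a2 i).1 hH₁.le, by positivity, ?_⟩, fun i j hij n hn => ?_⟩
    · rw [← add_div, div_le_one hH₁]; exact (a2 i).2
    · rw [← add_div]
      exact div_le_div_of_nonneg_right (a3 i j hij n (by exact_mod_cast hn)) hH₁.le
  have := hb.step hL (M := M) (H := H₁ * H₂) (by positivity) (C := fun _ => C₂) (fun i => by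
    have : H₁ * H₂ * (1 / H₁) = H₂ := by field_simp
    rw [this]; exact h₂)
  refine this.mono le_rfl ?_
  simp only [Finset.sum_const, Finset.card_univ, nsmul_eq_mul]
  exact mul_le_mul_of_nonneg_right a1 hC₂

theorem Good.pow {L : ℕ} (hL : 0 < L) {H C : ℝ} (h : Good (L ^ 2) H C) (hH : 0 < H)
    (hC : 0 ≤ C) (r : ℕ) : Good ((L ^ 2) ^ r) (H ^ r) (C ^ r) := by
  induction r with
  | zero => simpa using good_one
  | succ r ih =>
    have := h.lex hL ih hH (by positivity) (by positivity)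
    rw [pow_succ' (L ^ 2), pow_succ' H, pow_succ' C]
    exact this

/-- The archimedean order absorbs the rank. -/
theorem Good.finish {M K : ℕ} (hM : 0 < M) {C : ℝ} (h : Good M K C) :
    ∃ A ⊆ Finset.Icc 1 (M * K), (∀ a ∈ A, ∀ b ∈ A, ∀ n : ℕ, 1 ≤ n →
      (a : ℤ) - b ≠ (n : ℤ) ^ 2) ∧ C ≤ (A.card : ℝ) := by
  classical
  obtain ⟨ι, _, v, ρ, a1, a2, a3⟩ := h
  have hM' : (0 : ℤ) < M := by exact_mod_cast hM
  set f : ι → ℕ := fun i => (v i % M).toNat + 1 + M * (K - 1 - ⌊ρ i⌋₊) with hf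
  have hfl : ∀ i, ⌊ρ i⌋₊ + 1 ≤ K := by
    intro i
    have h1 : (⌊ρ i⌋₊ : ℝ) ≤ ρ i := Nat.floor_le (a2 i).1
    have h2 := (a2 i).2
    have : ((⌊ρ i⌋₊ + 1 : ℕ) : ℝ) ≤ K := by push_cast; linarith
    exact_mod_cast this
  have hmod : ∀ i, 0 ≤ v i % M ∧ v i % M < M := fun i =>
    ⟨Int.emod_nonneg _ hM'.ne', Int.emod_lt_of_pos _ hM'⟩
  have hfz : ∀ i, (f i : ℤ) = v i % M + 1 + M * ((K : ℤ) - 1 - ⌊ρ i⌋₊) := by
    intro i
    have := hfl i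
    simp only [hf]
    push_cast [Nat.cast_sub (show ⌊ρ i⌋₊ ≤ K - 1 by omega), Nat.cast_sub (show 1 ≤ K by omega)]
    rw [Int.toNat_of_nonneg (hmod i).1]
  have key : ∀ i j, i ≠ j → ∀ n : ℤ, (f i : ℤ) - f j = n ^ 2 → False := by
    intro i j hij n hn
    have hd : (M : ℤ) ∣ v i - v j - n ^ 2 := by
      rw [← hn, hfz, hfz]
      have e1 := Int.emod_add_mul_ediv (v i) M
      have e2 := Int.emod_add_mul_ediv (v j) M
      refine ⟨v i / M - v j / M + (⌊ρ i⌋₊ : ℤ) - (⌊ρ j⌋₊ : ℤ), ?_⟩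
      linear_combination (-1 : ℤ) * e1 + e2
    have h1 := a3 i j hij n hd
    have h2 : ⌊ρ j⌋₊ + 1 ≤ ⌊ρ i⌋₊ := by
      rw [← Nat.floor_add_one (a2 j).1]
      exact Nat.floor_mono h1
    have h3 : (⌊ρ j⌋₊ : ℤ) + 1 ≤ ⌊ρ i⌋₊ := by exact_mod_cast h2
    rw [hfz, hfz] at hn
    have := hmod i; have := hmod j
    have h4 : (M : ℤ) * ((⌊ρ j⌋₊ : ℤ) + 1) ≤ M * ⌊ρ i⌋₊ := mul_le_mul_of_nonneg_left h3 hM'.le
    nlinarith [sq_nonneg n]
  have hinj : Function.Injective f := by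
    intro i j hij
    by_contra hne
    exact key i j hne 0 (by rw [hij]; simp)
  refine ⟨Finset.univ.image f, ?_, ?_, ?_⟩
  · intro a ha
    obtain ⟨i, -, rfl⟩ := Finset.mem_image.mp ha
    rw [Finset.mem_Icc]
    refine ⟨by simp only [hf]; omega, ?_⟩
    have h1 := hfz i
    have h2 := hmod i
    have h3 : (0 : ℤ) ≤ M * (⌊ρ i⌋₊ : ℤ) := by positivity
    have : (f i : ℤ) ≤ M * K := by rw [h1]; nlinarith
    exact_mod_cast this
  · intro a ha b hb n hn hab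
    obtain ⟨i, -, rfl⟩ := Finset.mem_image.mp ha
    obtain ⟨j, -, rfl⟩ := Finset.mem_image.mp hb
    by_cases hij : i = j
    · subst hij
      have : (n : ℤ) ^ 2 = 0 := by rw [← hab]; simp
      have : (n : ℤ) = 0 := by simpa using this
      omega
    · exact key i j hij n hab
  · rw [Finset.card_image_of_injective _ hinj, Finset.card_univ]
    exact a1

end Vale.Agent.P042
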