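import Vale.Agent.P042.Basic

namespace Vale.Agent.P042

open Finset

/-- Iterating an interval system along all words of a prescribed type. -/
theorem Base.types {L : ℕ} (hL : 0 < L) {κ : Type} [Fintype κ] {G : ℕ} (g : κ → Fin G)
    {v : κ → ℤ} {lo : κ → ℝ} {W : Fin G → ℝ} (hW : ∀ γ, 0 < W γ)
    (hb : Base L κ v lo (fun i => W (g i))) (c : Fin G → ℕ)
    (hc : ∀ γ, c γ = (Finset.univ.filter fun i => g i = γ).card) (hc0 : ∀ γ, 0 < c γ)
    (k : ℕ) : ∀ n : Fin G → ℕ, ∑ γ, n γ = k →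
      Good ((L ^ 2) ^ k) (∏ γ, (W γ)⁻¹ ^ n γ)
        ((k.factorial : ℝ) * ∏ γ, ((c γ : ℝ) ^ n γ / ((n γ).factorial : ℝ))) := by
  classical
  induction k with
  | zero =>
    intro n hn
    have h0 : ∀ γ, n γ = 0 := fun γ =>
      (Finset.sum_eq_zero_iff.mp hn) γ (Finset.mem_univ _)
    simpa [h0] using good_one
  | succ k ih =>
    intro n hn
    set P : ℝ := ∏ γ, ((c γ : ℝ) ^ n γ / ((n γ).factorial : ℝ)) with hP
    set H : ℝ := ∏ γ, (W γ)⁻¹ ^ n γ with hH
    have hH0 : 0 ≤ H := Finset.prod_nonneg fun γ _ => pow_nonneg (inv_nonneg.mpr (hW γ).le) _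
    have hstep := hb.step hL (M := (L ^ 2) ^ k) (H := H) hH0
      (C := fun i => (k.factorial : ℝ) * P * ((n (g i) : ℝ) / c (g i))) (fun i => by
        rcases Nat.eq_zero_or_pos (n (g i)) with h0 | hpos
        · simpa [h0] using good_zero _ _
        · obtain ⟨t, ht⟩ : ∃ t, n (g i) = t + 1 := ⟨n (g i) - 1, by omega⟩
          have hsum : ∑ γ, Function.update n (g i) t γ = k := by
            rw [Finset.sum_update_of_mem (Finset.mem_univ _)]
            have := Finset.sum_eq_add_sum_sdiff_singleton_of_mem (Finset.mem_univ (g i)) n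
            omega
          have := ih _ hsum
          have e1 : ∏ γ, (W γ)⁻¹ ^ Function.update n (g i) t γ = H * W (g i) := by
            rw [hH, Finset.prod_eq_mul_prod_sdiff_singleton_of_mem (Finset.mem_univ (g i)),
              Finset.prod_eq_mul_prod_sdiff_singleton_of_mem (Finset.mem_univ (g i))
                (fun γ => (W γ)⁻¹ ^ n γ)]
            have : ∏ γ ∈ Finset.univ \ {g i}, (W γ)⁻¹ ^ Function.update n (g i) t γ =
                ∏ γ ∈ Finset.univ \ {g i}, (W γ)⁻¹ ^ n γ := by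
              refine Finset.prod_congr rfl fun γ hγ => ?_
              rw [Function.update_of_ne (by simpa using hγ)]
            rw [this, Function.update_self, ht, pow_succ]
            have := (hW (g i)).ne'
            field_simp
          have e2 : ∏ γ, ((c γ : ℝ) ^ Function.update n (g i) t γ /
              ((Function.update n (g i) t γ).factorial : ℝ)) = P * ((n (g i) : ℝ) / c (g i)) := by
            rw [hP, Finset.prod_eq_mul_prod_sdiff_singleton_of_mem (Finset.mem_univ (g i)),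
              Finset.prod_eq_mul_prod_sdiff_singleton_of_mem (Finset.mem_univ (g i))
                (fun γ => ((c γ : ℝ) ^ n γ / ((n γ).factorial : ℝ)))]
            have : ∏ γ ∈ Finset.univ \ {g i}, ((c γ : ℝ) ^ Function.update n (g i) t γ /
              ((Function.update n (g i) t γ).factorial : ℝ)) =
                ∏ γ ∈ Finset.univ \ {g i}, ((c γ : ℝ) ^ n γ / ((n γ).factorial : ℝ)) := by
              refine Finset.prod_congr rfl fun γ hγ => ?_
              rw [Function.update_of_ne (by simpa using hγ)]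
            rw [this, Function.update_self, ht, pow_succ, Nat.factorial_succ]
            have h1 : (c (g i) : ℝ) ≠ 0 := by exact_mod_cast (hc0 (g i)).ne'
            have h2 : (t.factorial : ℝ) ≠ 0 := by exact_mod_cast t.factorial_ne_zero
            push_cast
            field_simp
          rw [e1, e2, ← mul_assoc] at this
          exact this)
    rw [pow_succ']
    refine hstep.mono le_rfl (le_of_eq ?_)
    rw [← Finset.mul_sum]
    have : ∑ i, ((n (g i) : ℝ) / c (g i)) = ((k + 1 : ℕ) : ℝ) := by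
      rw [← Finset.sum_fiberwise (s := Finset.univ) (g := g), ← hn]
      push_cast
      refine Finset.sum_congr rfl fun γ _ => ?_
      rw [Finset.sum_congr rfl (g := fun _ => (n γ : ℝ) / c γ)
        (fun i hi => by rw [(Finset.mem_filter.mp hi).2])]
      rw [Finset.sum_const, ← hc γ, nsmul_eq_mul]
      have h1 : (c γ : ℝ) ≠ 0 := by exact_mod_cast (hc0 γ).ne'
      field_simp
    rw [this, Nat.factorial_succ]
    push_cast
    ring

theorem Base.block {L : ℕ} (hL : 0 < L) {κ : Type} [Fintype κ] {G : ℕ} (g : κ → Fin G)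
    {v : κ → ℤ} {lo : κ → ℝ} (D : ℕ) (b : Fin G → ℕ) (hD : 0 < D) (hb0 : ∀ γ, 0 < b γ)
    (hb : Base L κ v lo (fun i => (b (g i) : ℝ) / D)) (c : Fin G → ℕ)
    (hc : ∀ γ, c γ = (Finset.univ.filter fun i => g i = γ).card) (hc0 : ∀ γ, 0 < c γ)
    (n : Fin G → ℕ) (k T C : ℕ) (hk : ∑ γ, n γ = k) (hT : D ^ k ≤ T * ∏ γ, b γ ^ n γ)
    (hC : C * ∏ γ, (n γ).factorial ≤ k.factorial * ∏ γ, c γ ^ n γ) :
    Good ((L ^ k) ^ 2) T C := by
  have hD' : (0 : ℝ) < D := by exact_mod_cast hD
  have hb' : ∀ γ, (0 : ℝ) < b γ := fun γ => by exact_mod_cast hb0 γ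
  have := Base.types hL g (W := fun γ => (b γ : ℝ) / D) (fun γ => div_pos (hb' γ) hD') hb c hc hc0
    k n hk
  rw [← pow_mul, mul_comm 2 k, pow_mul] at this
  refine this.mono ?_ ?_
  · have e : ∏ γ, ((b γ : ℝ) / D)⁻¹ ^ n γ = (D : ℝ) ^ k / ∏ γ, (b γ : ℝ) ^ n γ := by
      rw [← hk, ← Finset.prod_pow_eq_pow_sum, ← Finset.prod_div_distrib]
      refine Finset.prod_congr rfl fun γ _ => ?_
      rw [inv_div, div_pow]
    rw [e, div_le_iff₀ (Finset.prod_pos fun γ _ => pow_pos (hb' γ) _)]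
    exact_mod_cast hT
  · rw [Finset.prod_div_distrib, ← mul_div_assoc,
      le_div_iff₀ (Finset.prod_pos fun γ _ => by exact_mod_cast (n γ).factorial_pos)]
    exact_mod_cast hC

/-- The finite check of an interval system modulo `Q`, from a bit mask of the squares. -/
theorem check_sound {Q : ℕ} (hQ : 0 < Q) (mask : ℕ)
    (hmask : ∀ x ∈ List.range Q, mask.testBit (x * x % Q) = true)
    (a b : ℕ) (hb : b ≤ Q) (n : ℤ) (h : (Q : ℤ) ∣ (a : ℤ) - b - n ^ 2) :
    mask.testBit ((a + (Q - b)) % Q) = true := by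
  have hQ' : (0 : ℤ) < Q := by exact_mod_cast hQ
  set x : ℕ := (n % Q).toNat with hx
  have hx0 : (x : ℤ) = n % Q := Int.toNat_of_nonneg (Int.emod_nonneg _ hQ'.ne')
  have hxQ : x < Q := by
    have := Int.emod_lt_of_pos n hQ'
    omega
  have e : (a + (Q - b)) % Q = x * x % Q := by
    have : ((a + (Q - b) : ℕ) : ℤ) ≡ ((x * x : ℕ) : ℤ) [ZMOD Q] := by
      push_cast [Nat.cast_sub hb]
      rw [hx0]
      have h1 : (a : ℤ) + (Q - b) ≡ n ^ 2 [ZMOD Q] := by
        apply Int.ModEq.symm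
        rw [Int.modEq_iff_dvd]
        have : (a : ℤ) + (Q - b) - n ^ 2 = (a - b - n ^ 2) + Q := by ring
        rw [this]
        exact dvd_add h dvd_rfl
      refine h1.trans ?_
      rw [pow_two]
      exact ((Int.mod_modEq n Q).mul (Int.mod_modEq n Q)).symm
    exact Int.natCast_modEq_iff.mp this
  rw [e]
  exact hmask x (List.mem_range.mpr hxQ)

theorem card_filter_list {G : ℕ} (l : List (ℕ × ℕ × Fin G)) (hl : l.Nodup) (γ : Fin G) :
    (Finset.univ.filter fun i : {s // s ∈ l.toFinset} => i.1.2.2 = γ).card =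
      (l.filter fun s => s.2.2 = γ).length := by
  classical
  rw [← List.toFinset_card_of_nodup (hl.filter _), List.toFinset_filter]
  rw [← Finset.card_map (Function.Embedding.subtype _)]
  congr 1
  ext s
  obtain ⟨a, b, c⟩ := s
  simp only [Finset.mem_map, Finset.mem_filter, Finset.mem_univ, true_and,
    Function.Embedding.coe_subtype, Subtype.exists, List.mem_toFinset, exists_and_right,
    decide_eq_true_eq]
  constructor
  · rintro ⟨t, ⟨ht, h1⟩, rfl⟩
    exact ⟨ht, h1⟩
  · rintro ⟨h1, h2⟩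
    exact ⟨_, ⟨h1, h2⟩, rfl⟩

/-- A block from a checked system modulo a perfect square. -/
theorem block_square (L D G mask : ℕ) (l : List (ℕ × ℕ × Fin G)) (b n : Fin G → ℕ)
    (k T C : ℕ) (hL : 0 < L) (hD : 0 < D) (hb0 : ∀ γ, 0 < b γ) (hl : l.Nodup)
    (hmask : ∀ x ∈ List.range (L ^ 2), mask.testBit (x * x % L ^ 2) = true)
    (h1 : ∀ s ∈ l, s.1 ≤ L ^ 2 ∧ s.2.1 + b s.2.2 ≤ D)
    (h2 : ∀ s ∈ l, ∀ t ∈ l, s = t ∨ t.2.1 + b t.2.2 ≤ s.2.1 ∨
      mask.testBit ((s.1 + (L ^ 2 - t.1)) % L ^ 2) = false)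
    (hc0 : ∀ γ, 0 < (l.filter fun s => s.2.2 = γ).length)
    (hk : ∑ γ, n γ = k) (hT : D ^ k ≤ T * ∏ γ, b γ ^ n γ)
    (hC : C * ∏ γ, (n γ).factorial ≤
      k.factorial * ∏ γ, (l.filter fun s => s.2.2 = γ).length ^ n γ) :
    Good ((L ^ k) ^ 2) T C := by
  classical
  have hD' : (0 : ℝ) < D := by exact_mod_cast hD
  refine Base.block hL (κ := {s // s ∈ l.toFinset}) (fun i => i.1.2.2)
    (v := fun i => (i.1.1 : ℤ)) (lo := fun i => (i.1.2.1 : ℝ) / D) D b hD hb0 ⟨?_, ?_⟩ _
    (fun γ => (card_filter_list l hl γ).symm) hc0 n k T C hk hT hC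
  · intro i
    have := (h1 i.1 (List.mem_toFinset.mp i.2)).2
    refine ⟨by positivity, by positivity, ?_⟩
    rw [← add_div, div_le_one hD']
    exact_mod_cast this
  · intro i j hij n hn
    have hi := List.mem_toFinset.mp i.2
    have hj := List.mem_toFinset.mp j.2
    rcases h2 i.1 hi j.1 hj with h | h | h
    · exact (hij (Subtype.ext h)).elim
    · simp only
      rw [← add_div]
      exact div_le_div_of_nonneg_right (by exact_mod_cast h) hD'.le
    · have := check_sound (Q := L ^ 2) (by positivity) mask hmask i.1.1 j.1.1 (h1 j.1 hj).1 n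
        (by push_cast; exact hn)
      rw [this] at h
      exact absurd h (by simp)

/-- A block from a checked system modulo a squarefree number. -/
theorem block_squarefree (m D G mask : ℕ) (l : List (ℕ × ℕ × Fin G)) (b n : Fin G → ℕ)
    (k T C : ℕ) (hm : Squarefree m) (hD : 0 < D) (hb0 : ∀ γ, 0 < b γ) (hl : l.Nodup)
    (hmask : ∀ x ∈ List.range m, mask.testBit (x * x % m) = true)
    (h1 : ∀ s ∈ l, s.1 ≤ m ∧ s.2.1 + b s.2.2 ≤ D)
    (h2 : ∀ s ∈ l, ∀ t ∈ l, s = t ∨ t.2.1 + b t.2.2 ≤ s.2.1 ∨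
      mask.testBit ((s.1 + (m - t.1)) % m) = false)
    (hc0 : ∀ γ, 0 < (l.filter fun s => s.2.2 = γ).length)
    (hk : ∑ γ, n γ = k) (hT : D ^ k ≤ T * ∏ γ, b γ ^ n γ)
    (hC : C * ∏ γ, (n γ).factorial ≤
      k.factorial * ∏ γ, ((l.filter fun s => s.2.2 = γ).length * m) ^ n γ) :
    Good ((m ^ k) ^ 2) T C := by
  classical
  have hD' : (0 : ℝ) < D := by exact_mod_cast hD
  have hm0 : 0 < m := Nat.pos_of_ne_zero hm.ne_zero
  have hbase := base_of_squarefree hm (κ := {s // s ∈ l.toFinset})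
    (v := fun i => (i.1.1 : ℤ)) (lo := fun i => (i.1.2.1 : ℝ) / D)
    (w := fun i => (b i.1.2.2 : ℝ) / D) (by
      intro i
      have := (h1 i.1 (List.mem_toFinset.mp i.2)).2
      refine ⟨by positivity, by positivity, ?_⟩
      rw [← add_div, div_le_one hD']
      exact_mod_cast this) (by
      intro i j hij n hn
      have hi := List.mem_toFinset.mp i.2
      have hj := List.mem_toFinset.mp j.2
      rcases h2 i.1 hi j.1 hj with h | h | h
      · exact (hij (Subtype.ext h)).elim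
      · rw [← add_div]
        exact div_le_div_of_nonneg_right (by exact_mod_cast h) hD'.le
      · have := check_sound (Q := m) hm0 mask hmask i.1.1 j.1.1 (h1 j.1 hj).1 n hn
        rw [this] at h
        exact absurd h (by simp))
  refine Base.block hm0 (κ := {s // s ∈ l.toFinset} × Fin m) (fun i => i.1.1.2.2) D b hD hb0
    hbase _ (fun γ => ?_) (fun γ => Nat.mul_pos (hc0 γ) hm0) n k T C hk hT hC
  rw [← card_filter_list l hl γ]
  have : (Finset.univ.filter fun i : {s // s ∈ l.toFinset} × Fin m => i.1.1.2.2 = γ) =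
      (Finset.univ.filter fun i : {s // s ∈ l.toFinset} => i.1.2.2 = γ) ×ˢ Finset.univ := by
    ext i
    simp
  rw [this, Finset.card_product, Finset.card_univ, Fintype.card_fin]

/-- All powers of a modulus carry good families. -/
def Fam (M s T C : ℕ) : Prop := ∀ r : ℕ, Good (M ^ r) (s * (T : ℝ) ^ r) ((C : ℝ) ^ r)

theorem fam_of_good {L T C : ℕ} (hL : 0 < L) (hT : 0 < T) (h : Good (L ^ 2) T C) :
    Fam (L ^ 2) 1 T C := fun r => by
  have := h.pow hL (by exact_mod_cast hT) (by positivity) r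
  simpa using this

theorem Fam.mul {M₁ M₂ s₁ s₂ T C₁ C₂ : ℕ} (h₁ : Fam M₁ s₁ T C₁) (h₂ : Fam M₂ s₂ T C₂)
    (hc : Nat.Coprime M₁ M₂) : Fam (M₁ * M₂) (s₁ + s₂) T (C₁ * C₂) := fun r => by
  have := (h₁ r).crt (h₂ r) (Nat.Coprime.pow r r hc) (by positivity)
  rw [mul_pow]
  refine this.mono (le_of_eq ?_) (le_of_eq ?_)
  · push_cast; ring
  · push_cast; ring

theorem Fam.lower {M s T C u v : ℕ} (h : Fam M s T C) (hM : 0 < M) (hs : 0 < s) (hu : 0 < u)
    (hMT : M * T ≤ 2 ^ u) (hC : 2 ^ v ≤ C) (γ : ℝ) (hγ0 : 0 < γ) (hγ1 : γ ≤ 1)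
    (hγ : γ * u ≤ v) :
    ∃ c : ℝ, 0 < c ∧ ∀ N : ℕ, ∃ A ⊆ Finset.Icc 1 N,
      (∀ a ∈ A, ∀ b ∈ A, ∀ n : ℕ, 1 ≤ n → (a : ℤ) - b ≠ (n : ℤ) ^ 2) ∧
        c * (N : ℝ) ^ γ ≤ (A.card : ℝ) := by
  classical
  have hs' : (1 : ℝ) ≤ s := by exact_mod_cast hs
  refine ⟨1 / (s * 2 ^ u), by positivity, fun N => ?_⟩
  rcases Nat.eq_zero_or_pos N with rfl | hN
  · exact ⟨∅, by simp, by simp, by simp [Real.zero_rpow hγ0.ne']⟩
  have hN' : (1 : ℝ) ≤ N := by exact_mod_cast hN
  by_cases hNs : N < s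
  · refine ⟨{1}, by simpa using Nat.succ_le_of_lt hN, ?_, ?_⟩
    · intro a ha b hb n hn hab
      rw [Finset.mem_singleton] at ha hb
      subst ha; subst hb
      have : (n : ℤ) ^ 2 = 0 := by rw [← hab]; simp
      have : (n : ℤ) = 0 := by simpa using this
      omega
    · have h1 : (N : ℝ) ^ γ ≤ N := by
        simpa using Real.rpow_le_rpow_of_exponent_le hN' hγ1
      have h2 : (N : ℝ) ≤ s := by exact_mod_cast hNs.le
      have h3 : (1 : ℝ) ≤ 2 ^ u := one_le_pow₀ (by norm_num)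
      rw [Finset.card_singleton, div_mul_eq_mul_div, one_mul, div_le_iff₀ (by positivity)]
      push_cast
      nlinarith
  · have hex : ∃ r : ℕ, N < s * (2 ^ u) ^ (r + 1) := by
      refine ⟨N, ?_⟩
      have h2 : 1 < 2 ^ u := Nat.one_lt_two_pow hu.ne'
      have := Nat.lt_pow_self (n := N + 1) h2
      nlinarith
    set r := Nat.find hex with hr
    have h1 : N < s * (2 ^ u) ^ (r + 1) := Nat.find_spec hex
    have h2 : s * (2 ^ u) ^ r ≤ N := by
      rcases Nat.eq_zero_or_pos r with h0 | hpos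
      · rw [h0]; simpa using Nat.le_of_not_lt hNs
      · have := Nat.find_min hex (m := r - 1) (by omega)
        have e : r - 1 + 1 = r := by omega
        rw [e] at this
        exact Nat.le_of_not_lt this
    have hg : Good (M ^ r) ((s * T ^ r : ℕ) : ℝ) ((C : ℝ) ^ r) := by
      have := h r
      push_cast
      exact this
    obtain ⟨A, hA1, hA2, hA3⟩ := hg.finish (by positivity)
    refine ⟨A, hA1.trans (Finset.Icc_subset_Icc_right ?_), hA2, le_trans ?_ hA3⟩
    · calc M ^ r * (s * T ^ r) = s * (M * T) ^ r := by rw [mul_pow]; ring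
        _ ≤ s * (2 ^ u) ^ r := Nat.mul_le_mul_left _ (Nat.pow_le_pow_left hMT r)
        _ ≤ N := h2
    · have h3 : (N : ℝ) ≤ (s * 2 ^ u) * (2 : ℝ) ^ ((u * r : ℕ) : ℝ) := by
        rw [Real.rpow_natCast]
        have : (N : ℝ) ≤ ((s * (2 ^ u) ^ (r + 1) : ℕ) : ℝ) := by exact_mod_cast h1.le
        refine this.trans (le_of_eq ?_)
        push_cast
        rw [pow_mul]; ring
      have h4 : (1 : ℝ) ≤ s * 2 ^ u := by
        have : (1 : ℝ) ≤ 2 ^ u := one_le_pow₀ (by norm_num)
        nlinarith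
      have h5 : (N : ℝ) ^ γ ≤ (s * 2 ^ u) * (2 : ℝ) ^ ((v * r : ℕ) : ℝ) := by
        refine (Real.rpow_le_rpow (by positivity) h3 hγ0.le).trans ?_
        rw [Real.mul_rpow (by positivity) (by positivity), ← Real.rpow_mul (by norm_num)]
        refine mul_le_mul ?_ ?_ (by positivity) (by positivity)
        · simpa using Real.rpow_le_rpow_of_exponent_le h4 hγ1
        · refine Real.rpow_le_rpow_of_exponent_le (by norm_num) ?_
          push_cast
          have : (0 : ℝ) ≤ r := by positivity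
          nlinarith
      rw [div_mul_eq_mul_div, one_mul, div_le_iff₀ (by positivity)]
      refine h5.trans ?_
      rw [mul_comm]
      refine mul_le_mul_of_nonneg_right ?_ (by positivity)
      rw [Real.rpow_natCast, pow_mul]
      refine pow_le_pow_left₀ (by positivity) ?_ r
      exact_mod_cast hC

end Vale.Agent.P042
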