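import Vale.Agent.P042.Block

namespace Vale.Agent.P042.Data1

def lb3 : List (ℕ × ℕ × Fin 1) := [
  (0, 0, 0), (1, 1, 0)]

theorem gb3 : Good ((3 ^ 3000) ^ 2) ((2 ^ 3000 : ℕ) : ℝ) ((1017031966024 * 2 ^ 7715 : ℕ) : ℝ) :=
  block_squarefree 3 2 1
    3
    lb3 ![1] ![3000]
    3000 (2 ^ 3000) (1017031966024 * 2 ^ 7715) (by decide +kernel) (by norm_num) (by decide +kernel) (by decide +kernel)
    (by decide +kernel) (by decide +kernel) (by decide +kernel) (by decide +kernel)
    (by decide +kernel) (by decide +kernel) (by decide +kernel)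

theorem fb3 : Fam ((3 ^ 3000) ^ 2) 1 (2 ^ 3000) (1017031966024 * 2 ^ 7715) :=
  fam_of_good (by positivity) (by positivity) gb3

def lb7 : List (ℕ × ℕ × Fin 1) := [
  (0, 0, 0), (1, 1, 0), (2, 2, 0)]

theorem gb7 : Good ((7 ^ 1892) ^ 2) ((2 ^ 3000 : ℕ) : ℝ) ((660406744314 * 2 ^ 8271 : ℕ) : ℝ) :=
  block_squarefree 7 3 1
    23
    lb7 ![1] ![1892]
    1892 (2 ^ 3000) (660406744314 * 2 ^ 8271) (by decide +kernel) (by norm_num) (by decide +kernel) (by decide +kernel)
    (by decide +kernel) (by decide +kernel) (by decide +kernel) (by decide +kernel)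
    (by decide +kernel) (by decide +kernel) (by decide +kernel)

theorem fb7 : Fam ((7 ^ 1892) ^ 2) 1 (2 ^ 3000) (660406744314 * 2 ^ 8271) :=
  fam_of_good (by positivity) (by positivity) gb7

def lb11 : List (ℕ × ℕ × Fin 1) := [
  (0, 0, 0), (1, 1, 0), (4, 2, 0), (5, 3, 0)]

theorem gb11 : Good ((11 ^ 1500) ^ 2) ((2 ^ 3000 : ℕ) : ℝ) ((608905739686 * 2 ^ 8150 : ℕ) : ℝ) :=
  block_squarefree 11 4 1
    571
    lb11 ![1] ![1500]
    1500 (2 ^ 3000) (608905739686 * 2 ^ 8150) (by decide +kernel) (by norm_num) (by decide +kernel) (by decide +kernel)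
    (by decide +kernel) (by decide +kernel) (by decide +kernel) (by decide +kernel)
    (by decide +kernel) (by decide +kernel) (by decide +kernel)

theorem fb11 : Fam ((11 ^ 1500) ^ 2) 1 (2 ^ 3000) (608905739686 * 2 ^ 8150) :=
  fam_of_good (by positivity) (by positivity) gb11

def lb19 : List (ℕ × ℕ × Fin 1) := [
  (0, 0, 0), (1, 1, 0), (6, 2, 0), (17, 3, 0), (7, 4, 0)]

theorem gb19 : Good ((19 ^ 1292) ^ 2) ((2 ^ 3000 : ℕ) : ℝ) ((655336969090 * 2 ^ 8449 : ℕ) : ℝ) :=
  block_squarefree 19 5 1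
    199411
    lb19 ![1] ![1292]
    1292 (2 ^ 3000) (655336969090 * 2 ^ 8449) (by decide +kernel) (by norm_num) (by decide +kernel) (by decide +kernel)
    (by decide +kernel) (by decide +kernel) (by decide +kernel) (by decide +kernel)
    (by decide +kernel) (by decide +kernel) (by decide +kernel)

theorem fb19 : Fam ((19 ^ 1292) ^ 2) 1 (2 ^ 3000) (655336969090 * 2 ^ 8449) :=
  fam_of_good (by positivity) (by positivity) gb19

def lb31 : List (ℕ × ℕ × Fin 1) := [
  (0, 0, 0), (1, 1, 0), (8, 2, 0), (5, 3, 0), (2, 4, 0), (9, 5, 0), (10, 6, 0)]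

theorem gb31 : Good ((31 ^ 1068) ^ 2) ((2 ^ 3000 : ℕ) : ℝ) ((694274992428 * 2 ^ 8250 : ℕ) : ℝ) :=
  block_squarefree 31 7 1
    303908791
    lb31 ![1] ![1068]
    1068 (2 ^ 3000) (694274992428 * 2 ^ 8250) (by decide +kernel) (by norm_num) (by decide +kernel) (by decide +kernel)
    (by decide +kernel) (by decide +kernel) (by decide +kernel) (by decide +kernel)
    (by decide +kernel) (by decide +kernel) (by decide +kernel)

theorem fb31 : Fam ((31 ^ 1068) ^ 2) 1 (2 ^ 3000) (694274992428 * 2 ^ 8250) :=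
  fam_of_good (by positivity) (by positivity) gb31

def lb43 : List (ℕ × ℕ × Fin 1) := [
  (0, 0, 0), (1, 1, 0), (10, 2, 0), (14, 3, 0), (11, 4, 0), (24, 5, 0), (25, 6, 0)]

theorem gb43 : Good ((43 ^ 1068) ^ 2) ((2 ^ 3000 : ℕ) : ℝ) ((780612051265 * 2 ^ 8754 : ℕ) : ℝ) :=
  block_squarefree 43 7 1
    3678700564051
    lb43 ![1] ![1068]
    1068 (2 ^ 3000) (780612051265 * 2 ^ 8754) (by decide +kernel) (by norm_num) (by decide +kernel) (by decide +kernel)
    (by decide +kernel) (by decide +kernel) (by decide +kernel) (by decide +kernel)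
    (by decide +kernel) (by decide +kernel) (by decide +kernel)

theorem fb43 : Fam ((43 ^ 1068) ^ 2) 1 (2 ^ 3000) (780612051265 * 2 ^ 8754) :=
  fam_of_good (by positivity) (by positivity) gb43

def lb59 : List (ℕ × ℕ × Fin 1) := [
  (0, 0, 0), (1, 1, 0), (20, 2, 0), (29, 3, 0), (27, 4, 0), (21, 5, 0), (46, 6, 0), (49, 7, 0),
  (36, 8, 0)]

theorem gb59 : Good ((59 ^ 946) ^ 2) ((2 ^ 3000 : ℕ) : ℝ) ((911452212069 * 2 ^ 8524 : ℕ) : ℝ) :=
  block_squarefree 59 9 1
    156326468341437115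
    lb59 ![1] ![946]
    946 (2 ^ 3000) (911452212069 * 2 ^ 8524) (by decide +kernel) (by norm_num) (by decide +kernel) (by decide +kernel)
    (by decide +kernel) (by decide +kernel) (by decide +kernel) (by decide +kernel)
    (by decide +kernel) (by decide +kernel) (by decide +kernel)

theorem fb59 : Fam ((59 ^ 946) ^ 2) 1 (2 ^ 3000) (911452212069 * 2 ^ 8524) :=
  fam_of_good (by positivity) (by positivity) gb59

def lb71 : List (ℕ × ℕ × Fin 1) := [
  (0, 0, 0), (1, 1, 0), (37, 2, 0), (20, 3, 0), (6, 4, 0), (30, 5, 0), (9, 6, 0), (49, 7, 0),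
  (38, 8, 0)]

theorem gb71 : Good ((71 ^ 946) ^ 2) ((2 ^ 3000 : ℕ) : ℝ) ((730364868809 * 2 ^ 8777 : ℕ) : ℝ) :=
  block_squarefree 71 9 1
    20052041432995567487
    lb71 ![1] ![946]
    946 (2 ^ 3000) (730364868809 * 2 ^ 8777) (by decide +kernel) (by norm_num) (by decide +kernel) (by decide +kernel)
    (by decide +kernel) (by decide +kernel) (by decide +kernel) (by decide +kernel)
    (by decide +kernel) (by decide +kernel) (by decide +kernel)

theorem fb71 : Fam ((71 ^ 946) ^ 2) 1 (2 ^ 3000) (730364868809 * 2 ^ 8777) :=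
  fam_of_good (by positivity) (by positivity) gb71

def lb103 : List (ℕ × ℕ × Fin 1) := [
  (0, 0, 0), (1, 1, 0), (29, 2, 0), (92, 3, 0), (2, 4, 0), (61, 5, 0), (17, 6, 0), (30, 7, 0),
  (93, 8, 0), (18, 9, 0), (19, 10, 0)]

theorem gb103 : Good ((103 ^ 867) ^ 2) ((2 ^ 3000 : ℕ) : ℝ) ((790059540935 * 2 ^ 8757 : ℕ) : ℝ) :=
  block_squarefree 103 11 1
    1760368345969468176824550810519
    lb103 ![1] ![867]
    867 (2 ^ 3000) (790059540935 * 2 ^ 8757) (by decide +kernel) (by norm_num) (by decide +kernel) (by decide +kernel)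
    (by decide +kernel) (by decide +kernel) (by decide +kernel) (by decide +kernel)
    (by decide +kernel) (by decide +kernel) (by decide +kernel)

theorem fb103 : Fam ((103 ^ 867) ^ 2) 1 (2 ^ 3000) (790059540935 * 2 ^ 8757) :=
  fam_of_good (by positivity) (by positivity) gb103

def lb115 : List (ℕ × ℕ × Fin 1) := [
  (4, 667, 0), (18, 167, 0), (49, 333, 0), (57, 667, 0), (60, 167, 0), (70, 0, 0), (77, 333, 0),
  (86, 833, 0), (97, 0, 0), (99, 833, 0), (101, 500, 0), (113, 500, 0)]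

theorem gb115 : Good ((115 ^ 1157) ^ 2) ((2 ^ 3000 : ℕ) : ℝ) ((562710636272 * 2 ^ 12029 : ℕ) : ℝ) :=
  block_squarefree 115 1000 1
    1362863085675154517642699494982227
    lb115 ![166] ![1157]
    1157 (2 ^ 3000) (562710636272 * 2 ^ 12029) (by decide +kernel) (by norm_num) (by decide +kernel) (by decide +kernel)
    (by decide +kernel) (by decide +kernel) (by decide +kernel) (by decide +kernel)
    (by decide +kernel) (by decide +kernel) (by decide +kernel)

theorem fb115 : Fam ((115 ^ 1157) ^ 2) 1 (2 ^ 3000) (562710636272 * 2 ^ 12029) :=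
  fam_of_good (by positivity) (by positivity) gb115

def lb16 : List (ℕ × ℕ × Fin 3) := [
  (0, 681, 2), (2, 0, 2), (3, 319, 0), (5, 681, 2), (7, 409, 1), (8, 500, 1), (10, 0, 2),
  (12, 591, 0), (13, 681, 2), (15, 0, 2)]

theorem gb16 : Good ((4 ^ 1299) ^ 2) ((2 ^ 3000 : ℕ) : ℝ) ((876724771186 * 2 ^ 4260 : ℕ) : ℝ) :=
  block_square 4 1000 3
    531
    lb16 ![90, 91, 319] ![236, 236, 827]
    1299 (2 ^ 3000) (876724771186 * 2 ^ 4260) (by norm_num) (by norm_num) (by decide +kernel) (by decide +kernel)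
    (by decide +kernel) (by decide +kernel) (by decide +kernel) (by decide +kernel)
    (by decide +kernel) (by decide +kernel) (by decide +kernel)

theorem fb16 : Fam ((4 ^ 1299) ^ 2) 1 (2 ^ 3000) (876724771186 * 2 ^ 4260) :=
  fam_of_good (by positivity) (by positivity) gb16

theorem main : ∃ c : ℝ, 0 < c ∧ ∀ N : ℕ, ∃ A ⊆ Finset.Icc 1 N,
      (∀ a ∈ A, ∀ b ∈ A, ∀ n : ℕ, 1 ≤ n → (a : ℤ) - b ≠ (n : ℤ) ^ 2) ∧
        c * (N : ℝ) ^ (0.7567 : ℝ) ≤ (A.card : ℝ) :=
  Fam.lower (u := 122057) (v := 92369)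
    ((((((((((fb3.mul fb7 (by decide +kernel)).mul fb11 (by decide +kernel)).mul fb19 (by decide +kernel)).mul fb31 (by decide +kernel)).mul fb43 (by decide +kernel)).mul fb59 (by decide +kernel)).mul fb71 (by decide +kernel)).mul fb103 (by decide +kernel)).mul fb115 (by decide +kernel)).mul fb16 (by decide +kernel))
    (by positivity) (by norm_num) (by norm_num) (by decide +kernel) (by decide +kernel) _
    (by norm_num) (by norm_num) (by norm_num)

end Vale.Agent.P042.Data1
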